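import Vale.Agent.P144Z.Top
import Vale.Agent.P144Z.RN.Exp
import Vale.Agent.P144Z.A2.Main
import Vale.Agent.P144Z.B4.Main
import Vale.Agent.P144Z.G.Main

/-!
# One integration with a covariance of finite range
-/

namespace Vale.Agent.P144Z

open Finset Matrix Filter Topology

namespace R2

section An

variable {M : ℕ} [NeZero M]

/-- Anchored sums give the bounds of the abstract step. -/
theorem le_of_anch {ℓ ℓ' : ℕ} (hℓ : 1 ≤ ℓ) (h4 : 4 * ℓ ≤ ℓ') (h1 : 1 ≤ ℓ') {τ ε q : ℝ} (hτ : 1 ≤ τ)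
    (hq : (ℓ' : ℝ) ≤ q * ℓ) {f : Finset (Tor M) → ℝ} (hf : ∀ X, 0 ≤ f X) (hA : Anch ℓ τ f ε) :
    (RN.szAt M ℓ' h1).Le (2 * τ + 0 + 2) f (50 * q ^ 2 * Real.exp (2 * τ + 2) * ε) := by
  intro Y
  have hε := G.anch_nonneg hf hA
  have hl : (0 : ℝ) < ℓ := by exact_mod_cast hℓ
  have hl' : (0 : ℝ) < ℓ' := by exact_mod_cast h1
  have h4' : (4 : ℝ) * ℓ ≤ ℓ' := by exact_mod_cast h4
  have ht := Anch.touch hℓ (by omega : ℓ ≤ ℓ') hf hA Y
  have hs : (0 : ℝ) ≤ 1 + (stein Y : ℝ) / ℓ' := by positivity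
  have hq' : ((ℓ' : ℝ) / ℓ) ^ 2 ≤ q ^ 2 :=
    pow_le_pow_left₀ (by positivity) ((div_le_iff₀ hl).2 hq) 2
  calc _ ≤ ∑ X ∈ univ.filter (fun X : Finset (Tor M) => ∃ x ∈ X, ∃ y ∈ Y, tdist x y ≤ ℓ'),
        Real.exp (2 * τ + 2) * (f X * Real.exp (τ * (stein X : ℝ) / ℓ)) := by
        refine (sum_congr (s₂ := univ.filter
          (fun X : Finset (Tor M) => ∃ x ∈ X, ∃ y ∈ Y, tdist x y ≤ ℓ')) ?_
            fun _ _ => rfl).trans_le (sum_le_sum fun X _ => ?_)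
        · ext X
          simp only [mem_filter, mem_univ, true_and]
          rfl
        · rw [mul_left_comm, ← Real.exp_add]
          refine mul_le_mul_of_nonneg_left (Real.exp_le_exp.2 ?_) (hf X)
          show (2 * τ + 0 + 2) * (1 + (stein X : ℝ) / ℓ') ≤ 2 * τ + 2 + τ * (stein X : ℝ) / ℓ
          have h2 : (2 * τ + 2) * ((stein X : ℝ) / ℓ') ≤ τ * (stein X : ℝ) / ℓ := by
            rw [← mul_div_assoc, div_le_div_iff₀ hl' hl]
            have h3 : (0 : ℝ) ≤ stein X := Nat.cast_nonneg _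
            have h5 : (2 * τ + 2) * ℓ ≤ τ * ℓ' := by nlinarith
            nlinarith
          linarith
    _ ≤ Real.exp (2 * τ + 2) * (50 * ((ℓ' : ℝ) / ℓ) ^ 2 * ε * (1 + stein Y / ℓ')) := by
        rw [← mul_sum]
        exact mul_le_mul_of_nonneg_left ht (Real.exp_pos _).le
    _ ≤ Real.exp (2 * τ + 2) * (50 * q ^ 2 * ε * (1 + stein Y / ℓ')) := by gcongr
    _ = _ := by
        show _ = _ * (1 + (stein Y : ℝ) / ℓ')
        ring

/-- The bounds of the abstract step give anchored sums. -/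
theorem anch_of_le {ℓ : ℕ} (h1 : 1 ≤ ℓ) {τ ε : ℝ} (hτ : 0 ≤ τ) {f : Finset (Tor M) → ℝ}
    (hf : ∀ X, 0 ≤ f X) (h : (RN.szAt M ℓ h1).Le τ f ε) : Anch ℓ τ f ε := by
  intro z
  have h2 := h {z}
  have h3 : (RN.szAt M ℓ h1).sz {z} = 1 := by
    show 1 + (stein {z} : ℝ) / ℓ = 1
    rw [stein_singleton]; simp
  rw [h3, mul_one] at h2
  refine le_trans ?_ h2
  refine (sum_le_sum fun X _ => ?_).trans_eq (sum_congr ?_ fun _ _ => rfl)
  · refine mul_le_mul_of_nonneg_left (Real.exp_le_exp.2 ?_) (hf X)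
    show τ * (stein X : ℝ) / ℓ ≤ τ * (1 + (stein X : ℝ) / ℓ)
    rw [mul_add, mul_div_assoc]
    linarith
  · ext X
    simp only [mem_filter, mem_univ, true_and]
    exact exists_congr fun x => and_congr_right fun _ =>
      ⟨fun h => ⟨z, mem_singleton_self z, h⟩, fun ⟨y, hy, h⟩ => mem_singleton.1 hy ▸ h⟩

theorem anch_mono {ℓ : ℕ} {τ ε ε' : ℝ} {f f' : Finset (Tor M) → ℝ} (h : Anch ℓ τ f ε)
    (hf : ∀ X, f' X ≤ f X) (hε : ε ≤ ε') : Anch ℓ τ f' ε' := fun z =>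
  ((sum_le_sum fun X _ => mul_le_mul_of_nonneg_right (hf X) (Real.exp_pos _).le).trans
    (h z)).trans hε

theorem anch_add {ℓ : ℕ} {τ ε ε' : ℝ} {f f' : Finset (Tor M) → ℝ} (h : Anch ℓ τ f ε)
    (h' : Anch ℓ τ f' ε') : Anch ℓ τ (fun X => f X + f' X) (ε + ε') := fun z => by
  simp only [add_mul, sum_add_distrib]
  exact add_le_add (h z) (h' z)

end An

theorem le_mono {P : Type} [DecidableEq P] [Fintype P] {Z : Size P} {τ τ' ε : ℝ}
    {f : Finset P → ℝ} (hf : ∀ X, 0 ≤ f X) (h : Z.Le τ f ε) (hτ : τ' ≤ τ) : Z.Le τ' f ε :=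
  fun Y => (sum_le_sum fun X _ => mul_le_mul_of_nonneg_left (Real.exp_le_exp.2
    (mul_le_mul_of_nonneg_right hτ (zero_le_one.trans (Z.one_le X)))) (hf X)).trans (h Y)

section Src

variable {S : Type} [Fintype S] [DecidableEq S]

theorem pp_mem {T : Set S} {s s' : S} (hs : s ∈ T) (hs' : s' ∈ T) :
    pp (Pi.single s 1) (Pi.single s' 1) ∈ evLoc T := by
  show Ev.val _ ∈ loc T
  rw [val_pp]
  exact mul_mem (A1.gen_mem hs) (A1.gen_mem hs')

theorem pp_sq (a b : S → ℝ) : pp a b * pp a b = 0 := by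
  apply Ev.val_injective
  rw [map_mul, val_pp, map_zero, mul_assoc, ← mul_assoc (psi b), A1.psi_swap b a, neg_mul, mul_neg,
    mul_assoc, A1.psi_sq, mul_zero, mul_zero, neg_zero]

theorem evG_mul {C : Matrix S S ℝ} (hC : Cᵀ = -C) {T T' : Set S} {F G : Ev S} (hF : F ∈ evLoc T)
    (hG : G ∈ evLoc T') (h : ∀ s ∈ T, ∀ s' ∈ T', C s s' = 0) :
    evG C (F * G) = evG C F * evG C G := by
  apply Ev.val_injective
  rw [val_evG, map_mul Ev.val, map_mul Ev.val, val_evG, val_evG]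
  exact gauss_mul hC hF hG h

theorem evG_one (C : Matrix S S ℝ) : evG C (1 : Ev S) = 1 :=
  Ev.val_injective (by rw [val_evG, map_one, gauss_one])

theorem evG_prod {C : Matrix S S ℝ} (hC : Cᵀ = -C) {ι : Type} [DecidableEq ι] (T : ι → Set S)
    (F : ι → Ev S) (hF : ∀ i, F i ∈ evLoc (T i))
    (h : ∀ i j, i ≠ j → ∀ s ∈ T i, ∀ s' ∈ T j, C s s' = 0) (t : Finset ι) :
    evG C (∏ i ∈ t, F i) = ∏ i ∈ t, evG C (F i) := by
  induction t using Finset.induction_on with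
  | empty => simpa using evG_one C
  | insert i t hi ih =>
    rw [prod_insert hi, prod_insert hi, ← ih]
    refine evG_mul hC (hF i) (T' := {s | ∃ j ∈ t, s ∈ T j}) (prod_mem fun j hj => ?_) ?_
    · exact A1.loc_mono (T := T j) (T' := {s | ∃ j ∈ t, s ∈ T j}) (fun s hs => ⟨j, hj, hs⟩) (hF j)
    · rintro s hs s' ⟨j, hj, hs'⟩
      exact h i j (fun e => hi (e ▸ hj)) s hs s' hs'

theorem exp_sum_sq {ι : Type} (t : Finset ι) (F : ι → Ev S) (h : ∀ i, F i * F i = 0) :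
    NormedSpace.exp (∑ i ∈ t, F i) = ∏ i ∈ t, (1 + F i) := by
  classical
  let _ : NormedAlgebra ℚ (Ev S) := NormedAlgebra.restrictScalars ℚ ℝ (Ev S)
  induction t using Finset.induction_on with
  | empty => simp
  | insert i t hi ih =>
    rw [sum_insert hi, prod_insert hi, NormedSpace.exp_add, ih, exp_sq_zero (h i)]

end Src

variable {g : Geo}

theorem bv_mem (k : g.K) {T : Set g.S} (h : ∀ i, Sum.inr (k, i) ∈ T) : g.bv k ∈ evLoc T :=
  pp_mem (h 0) (h 1)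

theorem edge_mem (x : g.P) (i : Fin 2) : g.edge x i ∈ evLoc (g.gens (star x)) := by
  refine Subalgebra.smul_mem _ (pp_mem ?_ ?_) _
  · exact G.mem_star_self x
  · show x + uv g.M i ∈ star x
    fin_cases i <;> simp [star]

theorem bE_mem (k : g.K) : g.bE k ∈ evLoc (g.gens (star (g.src k).y)) :=
  mul_mem (bv_mem k fun _ => G.mem_star_self _) (edge_mem _ _)

theorem evG_bE {C : Matrix (Tor g.M × Fin 4) (Tor g.M × Fin 4) ℝ} (hC : Cᵀ = -C) (k : g.K) :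
    ∃ F, evG (g.exM C) (g.bE k) = g.bv k * F := by
  have h1 : ∀ F, evG (g.exM C) (g.bv k * F) = evG (g.exM C) (g.bv k) * evG (g.exM C) F := fun F =>
    evG_mul (RN.exM_anti hC) (T := Set.range Sum.inr) (T' := Set.univ)
      (bv_mem k fun i => ⟨_, rfl⟩) (A1.mem_loc_univ _) (by
        rintro _ ⟨s, rfl⟩ s' _
        cases s' <;> rfl)
  have h2 : evG (g.exM C) (g.bv k) = g.bv k := by
    rw [Geo.bv, evG_pp (RN.exM_anti hC), single_one_dotProduct, mulVec_single_one]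
    simp [Geo.exM]
  exact ⟨_, by rw [Geo.bE, h1, h2]⟩

theorem sum_H (z : g.K → ℝ) (Λ : Finset g.P) : ∑ X ∈ Λ.powerset, (g.srcSt z).H X =
    ∑ k ∈ univ.filter (fun k => star (g.src k).y ∈ Λ.powerset), z k • g.bE k := by
  rw [← sum_fiberwise_eq_sum_filter univ Λ.powerset (fun k => star (g.src k).y)]
  refine sum_congr rfl fun X _ => ?_
  simp [Geo.St.H, Geo.St.car, Geo.srcSt]

end R2

namespace Geo

/-- One integration with a covariance of range `ℓ'`. -/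
theorem step_cl (τ : ℝ) (hτ : 1 ≤ τ) (𝓛 : ℕ) : ∃ C : ℝ, 1 ≤ C ∧ ∀ g : Geo, IsSign g.A →
    ∀ ℓ ℓ' : ℕ, 1 ≤ ℓ → 4 * ℓ ≤ ℓ' → ℓ' ≤ 𝓛 * ℓ →
    ∀ Cm : Matrix (Tor g.M × Fin 4) (Tor g.M × Fin 4) ℝ, Cmᵀ = -Cm →
    (∀ s s', ℓ' < tdist s.1 s'.1 → Cm s s' = 0) → ∀ c h β : ℝ, GramLe (Dm g.A) Cm ℓ c → 0 ≤ c →
    4 * c ≤ h → 0 < h → 0 < β →
    (∀ U, ∀ F ∈ g.sub U, g.pn ℓ (h / 2) β U (evG (g.exM Cm) F) ≤ g.pn ℓ h β U F) ∧
    ∀ H H' : Finset g.P → g.E, H ∅ = 0 → H' ∅ = 0 → (∀ X, H X ∈ g.sub X) → (∀ X, H' X ∈ g.sub X) →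
    ∀ ε ε' : ℝ, C * ε ≤ 1 → Anch ℓ τ (fun X => g.pn ℓ h β X (H X)) ε →
      Anch ℓ τ (fun X => g.pn ℓ h β X (H' X)) ε →
      Anch ℓ τ (fun X => g.pn ℓ h β X (H X - H' X)) ε' →
      NormedSpace.exp (∑ U, Cl (evG (g.exM Cm)) H U) =
        evG (g.exM Cm) (NormedSpace.exp (∑ X, H X)) ∧
      Anch ℓ' (2 * τ) (fun U => g.pn ℓ (h / 2) β U ((Cl (evG (g.exM Cm)) H U - evG (g.exM Cm) (H U))
        - (Cl (evG (g.exM Cm)) H' U - evG (g.exM Cm) (H' U)))) (C * ε * ε') ∧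
      Anch ℓ' (2 * τ) (fun U => g.pn ℓ (h / 2) β U
        (Cl (evG (g.exM Cm)) H U - Cl (evG (g.exM Cm)) H' U)) (C * ε') := by
  obtain ⟨D, hD⟩ : ∃ D : ℝ, D = 50 * ((𝓛 : ℝ) + 1) ^ 2 * Real.exp (2 * τ + 2) := ⟨_, rfl⟩
  have hD1 : 1 ≤ D := by
    have h1 : (1 : ℝ) ≤ ((𝓛 : ℝ) + 1) ^ 2 :=
      one_le_pow₀ (le_add_of_nonneg_left (Nat.cast_nonneg _))
    have h2 : 1 ≤ Real.exp (2 * τ + 2) := Real.one_le_exp (by linarith)
    rw [hD]
    exact one_le_mul_of_one_le_of_one_le (by linarith) h2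
  refine ⟨1000 * D ^ 2, by nlinarith, fun g _ ℓ ℓ' hℓ h4 hL Cm hC hr c h β hG hc hch hh hβ => ?_⟩
  have h1 : 1 ≤ ℓ' := by omega
  have hh2 : 0 < h / 2 := half_pos hh
  have hhc : h / 2 + 2 * c ≤ h := by linarith
  have hpn : ∀ U, ∀ F ∈ g.sub U, g.pn ℓ (h / 2) β U (evG (g.exM Cm) F) ≤ g.pn ℓ h β U F :=
    fun U F hF => RN.pn_evG hC hℓ hG hc hh2 hhc hβ hF
  refine ⟨hpn, fun H H' h0 h0' hH hH' ε ε' hε hA hA' hd => ?_⟩
  have hE := RN.isExp_evG hC hℓ hG hc hh hh2 hhc hβ (RN.szAt g.M ℓ' h1)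
    fun s s' hs => hr s s' (not_le.1 hs)
  have hq : (ℓ' : ℝ) ≤ ((𝓛 : ℝ) + 1) * ℓ := by
    have : ℓ' ≤ (𝓛 + 1) * ℓ := hL.trans (Nat.mul_le_mul_right _ (Nat.le_succ _))
    exact_mod_cast this
  have hε0 : 0 ≤ ε := G.anch_nonneg (fun _ => RN.pn_nonneg _) hA
  have hε0' : 0 ≤ ε' := G.anch_nonneg (fun _ => RN.pn_nonneg _) hd
  have l1 := R2.le_of_anch hℓ h4 h1 hτ hq (fun _ => RN.pn_nonneg _) hA
  have l2 := R2.le_of_anch hℓ h4 h1 hτ hq (fun _ => RN.pn_nonneg _) hA'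
  have l3 := R2.le_of_anch hℓ h4 h1 hτ hq (fun _ => RN.pn_nonneg _) hd
  rw [← hD] at l1 l2 l3
  have hτ2 : 0 ≤ 2 * τ := by linarith
  have hDε : D * ε ≤ 1 / 48 := by nlinarith [mul_nonneg (zero_le_one.trans hD1) hε0]
  have m1 := cl_main exp_ev_injective _ _ _ le_rfl hτ2 hE h0 hH (by linarith) l1
  have m2 := R2.anch_of_le h1 hτ2 (fun _ => RN.pn_nonneg _)
    (cl_rem exp_ev_injective _ _ _ le_rfl hτ2 hE h0 h0' hH hH' hDε l1 l2 l3)
  have m3 := R2.anch_of_le h1 hτ2 (fun _ => RN.pn_nonneg _)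
    (R2.le_mono (fun _ => RN.pn_nonneg _) l3 (by linarith))
  have e : 1000 * (D * ε) * (D * ε') = 1000 * D ^ 2 * ε * ε' := by ring
  rw [e] at m2
  refine ⟨?_, m2, R2.anch_mono (R2.anch_add m2 m3) (fun U => ?_) ?_⟩
  · have := m1.2.2.2 univ
    rwa [powerset_univ] at this
  · have e2 : Cl (evG (g.exM Cm)) H U - Cl (evG (g.exM Cm)) H' U =
        ((Cl (evG (g.exM Cm)) H U - evG (g.exM Cm) (H U))
          - (Cl (evG (g.exM Cm)) H' U - evG (g.exM Cm) (H' U))) + evG (g.exM Cm) (H U - H' U) := by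
      rw [map_sub]; ring
    rw [e2]
    exact (RN.pn_add hℓ hh2 hβ _ _).trans
      (add_le_add le_rfl (hpn U _ (sub_mem (hH U) (hH' U))))
  · have := mul_le_mul_of_nonneg_right hε hε0'
    have h3 : 1 + D ≤ 1000 * D ^ 2 := by nlinarith
    have := mul_le_mul_of_nonneg_right h3 hε0'
    linarith

/-- Isolated sources are integrated exactly. -/
theorem Cl_srcSt {g : Geo} {ℓ' : ℕ} {Cm : Matrix (Tor g.M × Fin 4) (Tor g.M × Fin 4) ℝ}
    (hC : Cmᵀ = -Cm) (hr : ∀ s s', ℓ' < tdist s.1 s'.1 → Cm s s' = 0)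
    (hs : ∀ k k', k ≠ k' → ℓ' + 2 < tdist (g.src k).y (g.src k').y) (z : g.K → ℝ) (U : Finset g.P) :
    Cl (evG (g.exM Cm)) (g.srcSt z).H U = evG (g.exM Cm) ((g.srcSt z).H U) := by
  refine B4.Cl_unique exp_ev_injective _ _ (fun X => evG (g.exM Cm) ((g.srcSt z).H X))
    fun Λ _ => ?_
  have hb : ∀ k, g.bv k * g.bv k = 0 := fun k => R2.pp_sq _ _
  have h1 : ∀ k, z k • g.bE k * z k • g.bE k = 0 := fun k => by
    rw [smul_mul_smul_comm, Geo.bE, mul_mul_mul_comm, hb, zero_mul, smul_zero]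
  have h2 : ∀ k, evG (g.exM Cm) (z k • g.bE k) * evG (g.exM Cm) (z k • g.bE k) = 0 := fun k => by
    obtain ⟨F, hF⟩ := R2.evG_bE hC k
    rw [map_smul, hF, smul_mul_smul_comm, mul_mul_mul_comm, hb, zero_mul, smul_zero]
  rw [← map_sum, R2.sum_H, map_sum, R2.exp_sum_sq _ _ h1, R2.exp_sum_sq _ _ h2,
    R2.evG_prod (RN.exM_anti hC) (fun k => g.gens (star (g.src k).y)) _
      (fun k => add_mem (one_mem _) (Subalgebra.smul_mem _ (R2.bE_mem k) _))]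
  · exact prod_congr rfl fun k _ => by rw [map_add, R2.evG_one]
  · intro k k' hk s hs1 s' hs2
    rcases s with s | s <;> rcases s' with s' | s'
    · refine hr s s' ?_
      have a1 := G.tdist_star (show s.1 ∈ star (g.src k).y from hs1)
      have a2 := G.tdist_star (show s'.1 ∈ star (g.src k').y from hs2)
      have a3 := tdist_triangle (g.src k).y s.1 (g.src k').y
      have a4 := tdist_triangle s.1 s'.1 (g.src k').y
      rw [tdist_comm] at a2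
      have := hs k k' hk
      omega
    all_goals rfl

end Geo

end Vale.Agent.P144Z
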